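/-
P217: a complete field with a dense algebraically closed subfield is algebraically closed
(any characteristic).
-/
import Mathlib

namespace Vale.Agent.P217.RankOne

open Polynomial Filter Topology

variable {L : Type*} [NormedField L]

theorem norm_root_le {g : L[X]} (hg : g.Monic) {a : L} (ha : g.eval a = 0) {B : ℝ} (hB : 1 ≤ B)
    (hc : ∀ i, ‖g.coeff i‖ ≤ B) : ‖a‖ ≤ (g.natDegree + 1) * B := by
  have hd : g.natDegree ≠ 0 := fun h0 => by simp [hg.natDegree_eq_zero.1 h0] at ha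
  rcases le_or_gt ‖a‖ 1 with h1 | h1
  · exact h1.trans (one_le_mul_of_one_le_of_one_le
      (le_add_of_nonneg_left (Nat.cast_nonneg _)) hB)
  obtain ⟨d, hd'⟩ := Nat.exists_eq_succ_of_ne_zero hd
  rw [eval_eq_sum_range, Finset.sum_range_succ, hg.coeff_natDegree, one_mul,
    add_eq_zero_iff_neg_eq'.trans eq_comm, hd'] at ha
  have h2 : ‖a‖ ^ (d + 1) ≤ (d + 1) * B * ‖a‖ ^ d := by
    rw [← norm_pow, ← norm_neg, ← ha]
    refine (norm_sum_le _ _).trans ((Finset.sum_le_card_nsmul _ _ (B * ‖a‖ ^ d) fun i hi => ?_).trans ?_)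
    · rw [norm_mul, norm_pow]
      exact mul_le_mul (hc i) (pow_le_pow_right₀ h1.le (Nat.lt_succ_iff.1 (Finset.mem_range.1 hi)))
        (by positivity) (zero_le_one.trans hB)
    · rw [Finset.card_range, nsmul_eq_mul, mul_assoc]
      exact_mod_cast le_rfl
  rw [pow_succ'] at h2
  rw [hd']
  push_cast
  nlinarith [le_of_mul_le_mul_right h2 (pow_pos (zero_lt_one.trans h1) d)]

theorem norm_eval_sub_le {f g : L[X]} {d : ℕ} (hf : f.natDegree ≤ d) (hg : g.natDegree ≤ d)
    {ε : ℝ} (hc : ∀ i, ‖f.coeff i - g.coeff i‖ ≤ ε) {a : L} {C : ℝ} (hC : 1 ≤ C) (ha : ‖a‖ ≤ C) :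
    ‖f.eval a - g.eval a‖ ≤ (d + 1) * (ε * C ^ d) := by
  rw [eval_eq_sum_range' (Nat.lt_succ_of_le hf), eval_eq_sum_range' (Nat.lt_succ_of_le hg),
    ← Finset.sum_sub_distrib]
  refine (norm_sum_le _ _).trans ((Finset.sum_le_card_nsmul _ _ (ε * C ^ d) fun i hi => ?_).trans ?_)
  · rw [← sub_mul, norm_mul, norm_pow]
    exact mul_le_mul (hc i) ((pow_le_pow_left₀ (norm_nonneg a) ha i).trans
      (pow_le_pow_right₀ hC (Nat.lt_succ_iff.1 (Finset.mem_range.1 hi))))
      (by positivity) ((norm_nonneg _).trans (hc i))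
  · rw [Finset.card_range, nsmul_eq_mul]
    push_cast
    exact le_rfl

theorem isAlgClosed_of_denseRange {K : Type*} [Field K] [IsAlgClosed K] [Algebra K L]
    [CompleteSpace L] (hd : DenseRange (algebraMap K L)) : IsAlgClosed L := by
  refine IsAlgClosed.of_exists_root _ fun f fmon firr => ?_
  set d := f.natDegree with hdd
  have hd0 : d ≠ 0 := (Irreducible.natDegree_pos firr).ne'
  let ε : ℕ → ℝ := fun k => ((1 / 2 : ℝ) ^ k) ^ d
  have hε : ∀ k, 0 < ε k := fun k => by positivity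
  have hε1 : ∀ k, ε k ≤ 1 := fun k =>
    pow_le_one₀ (by positivity) (pow_le_one₀ (by norm_num) (by norm_num))
  choose g gmon gdeg gcoeff using fun k =>
    exists_monic_and_natDegree_eq_and_norm_map_algebraMap_coeff_sub_lt hd fmon (hε k)
  let G : ℕ → L[X] := fun k => (g k).map (algebraMap K L)
  have Gmon : ∀ k, (G k).Monic := fun k => (gmon k).map _
  have Gdeg : ∀ k, (G k).natDegree = d := fun k => by rw [natDegree_map, ← gdeg k]
  have Gspl : ∀ k, (G k).Splits := fun k => (IsAlgClosed.splits (g k)).map _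
  set B : ℝ := ∑ i ∈ Finset.range (d + 1), ‖f.coeff i‖ + 1 with hBdef
  have hB : 1 ≤ B := le_add_of_nonneg_left (Finset.sum_nonneg fun i _ => norm_nonneg _)
  have hGB : ∀ k i, ‖(G k).coeff i‖ ≤ B := fun k i => by
    rcases lt_or_ge i (d + 1) with hi | hi
    · have h1 : ‖(G k).coeff i - f.coeff i‖ ≤ 1 := (gcoeff k i).le.trans (hε1 k)
      have h2 := Finset.single_le_sum (fun j _ => norm_nonneg (f.coeff j)) (Finset.mem_range.2 hi)
      linarith [norm_le_norm_add_norm_sub' ((G k).coeff i) (f.coeff i)]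
    · rw [coeff_eq_zero_of_natDegree_lt (by rw [Gdeg]; omega), norm_zero]
      exact zero_le_one.trans hB
  set C : ℝ := (d + 1) * B with hCdef
  have hC : 1 ≤ C := one_le_mul_of_one_le_of_one_le (le_add_of_nonneg_left (Nat.cast_nonneg _)) hB
  have hroot : ∀ k a, (G k).eval a = 0 → ‖a‖ ≤ C := fun k a ha =>
    (norm_root_le (Gmon k) ha hB (hGB k)).trans_eq (by rw [Gdeg, hCdef])
  set M : ℝ := ((d + 1) * 2) ^ (d : ℝ)⁻¹ * C with hMdef
  have step : ∀ k a, (G k).eval a = 0 →
      ∃ b, (G (k + 1)).eval b = 0 ∧ ‖a - b‖ ≤ M * (1 / 2) ^ k := by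
    intro k a ha
    have hk : ε (k + 1) ≤ ε k :=
      pow_le_pow_left₀ (by positivity) (pow_le_pow_of_le_one (by norm_num) (by norm_num) k.le_succ) _
    obtain ⟨b, hb, hab⟩ := exists_roots_norm_sub_lt_of_norm_coeff_sub_lt (f := G k) (g := G (k + 1))
      (ε := 2 * ε k) (by linarith [hε k]) ha (Gmon k) (Gmon _) (by rw [Gdeg, Gdeg])
      (fun i => lt_of_le_of_lt (norm_sub_le_norm_sub_add_norm_sub _ (f.coeff i) _)
        (by linarith [gcoeff (k + 1) i, gcoeff k i, norm_sub_rev (f.coeff i) ((G k).coeff i)]))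
      (Gspl _)
    refine ⟨b, (mem_roots'.1 hb).2, hab.le.trans ?_⟩
    rw [Gdeg, ← mul_assoc ((d : ℝ) + 1), Real.mul_rpow (by positivity) (hε k).le,
      Real.pow_rpow_inv_natCast (by positivity) hd0, hMdef, mul_right_comm]
    exact mul_le_mul_of_nonneg_right
      (mul_le_mul_of_nonneg_left (max_le (hroot k a ha) hC) (by positivity)) (by positivity)
  choose next hnext hdist using step
  have h0 : ∃ a, (G 0).eval a = 0 :=
    (Gspl 0).exists_eval_eq_zero (by
      rw [degree_eq_natDegree (Gmon 0).ne_zero, Gdeg]; exact_mod_cast hd0)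
  let s : ∀ k, {a : L // (G k).eval a = 0} := fun k =>
    Nat.rec ⟨h0.choose, h0.choose_spec⟩ (fun k a => ⟨next k a.1 a.2, hnext k a.1 a.2⟩) k
  have hcau : CauchySeq fun k => (s k).1 :=
    cauchySeq_of_le_geometric (1 / 2) M (by norm_num) fun k => by
      rw [dist_eq_norm]
      exact hdist k (s k).1 (s k).2
  obtain ⟨a, ha⟩ := cauchySeq_tendsto_of_complete hcau
  refine ⟨a, tendsto_nhds_unique ((f.continuous.tendsto a).comp ha) ?_⟩
  refine squeeze_zero_norm (a := fun k => (d + 1) * (ε k * C ^ d)) (fun k => ?_) ?_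
  · have := norm_eval_sub_le (le_of_eq hdd.symm) (Gdeg k).le
      (fun i => (norm_sub_rev _ _).trans_le (gcoeff k i).le) hC (hroot k _ (s k).2)
    rwa [(s k).2, sub_zero] at this
  · have he : Tendsto ε atTop (𝓝 0) := by
      have := (tendsto_pow_atTop_nhds_zero_of_lt_one (r := (1 / 2 : ℝ)) (by norm_num)
        (by norm_num)).pow d
      rwa [zero_pow hd0] at this
    simpa using (he.mul_const (C ^ d)).const_mul ((d : ℝ) + 1)

end Vale.Agent.P217.RankOne
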