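/-
P217: a real absolute value from a valuation with a topologically nilpotent element.
-/
import Mathlib

namespace Vale.Agent.P217.RankOne

variable {L Γ : Type*} [Field L] [LinearOrderedCommGroupWithZero Γ] (v : Valuation L Γ)

/-- `v x ^ l ≤ γ ^ k`. -/
def Mem (γ : Γ) (x : L) (k : ℤ) (l : ℕ) : Prop := v x ^ l ≤ γ ^ k

/-- The ratios `k / l` below the real valuation. -/
def Cut (γ : Γ) (x : L) : Set ℝ :=
  {r | ∃ (k : ℤ) (l : ℕ), 0 < l ∧ Mem v γ x k l ∧ r ≤ (k : ℝ) / l}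

/-- The real valuation. -/
noncomputable def ord (γ : Γ) (x : L) : ℝ := sSup (Cut v γ x)

/-- The absolute value. -/
noncomputable def absFun (γ : Γ) (x : L) : ℝ :=
  open scoped Classical in if x = 0 then 0 else Real.exp (-ord v γ x)

/-- All nonzero values lie between powers of `γ`. -/
def Bounded (γ : Γ) : Prop :=
  0 < γ ∧ γ < 1 ∧ ∀ x : L, x ≠ 0 → ∃ K : ℕ, γ ^ (K : ℤ) ≤ v x ∧ v x ≤ γ ^ (-(K : ℤ))

variable {v} {γ : Γ}

theorem zpow_le_iff (h : Bounded v γ) {a b : ℤ} : γ ^ a ≤ γ ^ b ↔ b ≤ a :=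
  (zpow_right_strictAnti₀ h.1 h.2.1).le_iff_ge

theorem mem_of_ratio_le (h : Bounded v γ) {x : L} {k k' : ℤ} {l l' : ℕ} (hl : 0 < l)
    (hm : Mem v γ x k l) (hle : k' * l ≤ k * l') : Mem v γ x k' l' := by
  unfold Mem at hm ⊢
  refine le_of_pow_le_pow_left₀ hl.ne' (zero_le) ?_
  calc (v x ^ l') ^ l = (v x ^ l) ^ l' := by rw [← pow_mul, ← pow_mul, mul_comm]
    _ ≤ (γ ^ k) ^ l' := pow_le_pow_left₀ zero_le hm l'
    _ = γ ^ (k * l') := by rw [zpow_mul, zpow_natCast]
    _ ≤ γ ^ (k' * l) := (zpow_le_iff h).2 hle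
    _ = (γ ^ k') ^ l := by rw [zpow_mul, zpow_natCast]

theorem bddAbove_cut (h : Bounded v γ) {x : L} (hx : x ≠ 0) : BddAbove (Cut v γ x) := by
  obtain ⟨K, hK, -⟩ := h.2.2 x hx
  refine ⟨K, fun r ⟨k, l, hl, hm, hr⟩ => hr.trans ?_⟩
  rw [div_le_iff₀ (by exact_mod_cast hl)]
  have h1 : γ ^ ((K : ℤ) * l) ≤ γ ^ k := by
    rw [zpow_mul, zpow_natCast (γ ^ (K : ℤ))]
    exact (pow_le_pow_left₀ zero_le hK l).trans hm
  exact_mod_cast (zpow_le_iff h).1 h1

theorem cut_nonempty (h : Bounded v γ) {x : L} (hx : x ≠ 0) : (Cut v γ x).Nonempty := by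
  obtain ⟨K, -, hK⟩ := h.2.2 x hx
  exact ⟨_, -(K : ℤ), 1, one_pos, by simpa [Mem] using hK, le_rfl⟩

theorem le_ord (h : Bounded v γ) {x : L} (hx : x ≠ 0) {k : ℤ} {l : ℕ} (hl : 0 < l)
    (hm : Mem v γ x k l) : (k : ℝ) / l ≤ ord v γ x :=
  le_csSup (bddAbove_cut h hx) ⟨k, l, hl, hm, le_rfl⟩

theorem mem_of_lt_ord (h : Bounded v γ) {x : L} (hx : x ≠ 0) {k : ℤ} {l : ℕ} (hl : 0 < l)
    (hlt : (k : ℝ) / l < ord v γ x) : Mem v γ x k l := by
  obtain ⟨r, ⟨k', l', hl', hm, hr⟩, hlr⟩ := exists_lt_of_lt_csSup (cut_nonempty h hx) hlt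
  have := hlr.trans_le hr
  rw [div_lt_div_iff₀ (by exact_mod_cast hl) (by exact_mod_cast hl')] at this
  exact mem_of_ratio_le h hl' hm (by exact_mod_cast this.le)

theorem ord_le (h : Bounded v γ) {x : L} (hx : x ≠ 0) {k : ℤ} {l : ℕ} (hl : 0 < l)
    (hm : ¬ Mem v γ x k l) : ord v γ x ≤ (k : ℝ) / l :=
  le_of_not_gt fun hlt => hm (mem_of_lt_ord h hx hl hlt)

theorem rat_div (q : ℚ) : (q : ℝ) = (q.num : ℝ) / q.den := by
  rw [Rat.cast_def]

theorem ord_mul (h : Bounded v γ) {x y : L} (hx : x ≠ 0) (hy : y ≠ 0) :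
    ord v γ (x * y) = ord v γ x + ord v γ y := by
  refine le_antisymm (le_of_forall_pos_le_add fun ε hε => ?_) (le_of_forall_pos_le_add fun ε hε => ?_)
  · obtain ⟨a, ha, ha'⟩ := exists_rat_btwn (show ord v γ x < ord v γ x + ε / 2 by linarith)
    obtain ⟨b, hb, hb'⟩ := exists_rat_btwn (show ord v γ y < ord v γ y + ε / 2 by linarith)
    rw [rat_div] at ha ha' hb hb'
    have h1 : ¬ Mem v γ x a.num a.den := fun hm => (le_ord h hx a.pos hm).not_gt ha
    have h2 : ¬ Mem v γ y b.num b.den := fun hm => (le_ord h hy b.pos hm).not_gt hb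
    have h3 : ¬ Mem v γ (x * y) (a.num * b.den + b.num * a.den) (a.den * b.den) := by
      unfold Mem at *
      rw [not_le] at *
      rw [map_mul, mul_pow, pow_mul, mul_comm a.den, pow_mul, zpow_add₀ h.1.ne', zpow_mul, zpow_mul,
        zpow_natCast, zpow_natCast]
      exact mul_lt_mul'' (pow_lt_pow_left₀ h1 zero_le b.pos.ne')
        (pow_lt_pow_left₀ h2 zero_le a.pos.ne') zero_le zero_le
    have h4 := ord_le h (mul_ne_zero hx hy) (Nat.mul_pos a.pos b.pos) h3
    have ha0 : (a.den : ℝ) ≠ 0 := by exact_mod_cast a.pos.ne'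
    have hb0 : (b.den : ℝ) ≠ 0 := by exact_mod_cast b.pos.ne'
    push_cast at h4
    rw [add_div, mul_div_mul_right _ _ hb0, mul_comm (a.den : ℝ), mul_div_mul_right _ _ ha0] at h4
    linarith
  · obtain ⟨a, ha, ha'⟩ := exists_rat_btwn (show ord v γ x - ε / 2 < ord v γ x by linarith)
    obtain ⟨b, hb, hb'⟩ := exists_rat_btwn (show ord v γ y - ε / 2 < ord v γ y by linarith)
    rw [rat_div] at ha ha' hb hb'
    have h1 : Mem v γ x a.num a.den := mem_of_lt_ord h hx a.pos ha'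
    have h2 : Mem v γ y b.num b.den := mem_of_lt_ord h hy b.pos hb'
    have h3 : Mem v γ (x * y) (a.num * b.den + b.num * a.den) (a.den * b.den) := by
      unfold Mem at *
      rw [map_mul, mul_pow, pow_mul, mul_comm a.den, pow_mul, zpow_add₀ h.1.ne', zpow_mul, zpow_mul,
        zpow_natCast, zpow_natCast]
      exact mul_le_mul' (pow_le_pow_left₀ zero_le h1 _) (pow_le_pow_left₀ zero_le h2 _)
    have h4 := le_ord h (mul_ne_zero hx hy) (Nat.mul_pos a.pos b.pos) h3
    have ha0 : (a.den : ℝ) ≠ 0 := by exact_mod_cast a.pos.ne'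
    have hb0 : (b.den : ℝ) ≠ 0 := by exact_mod_cast b.pos.ne'
    push_cast at h4
    rw [add_div, mul_div_mul_right _ _ hb0, mul_comm (a.den : ℝ), mul_div_mul_right _ _ ha0] at h4
    linarith

theorem ord_mono (h : Bounded v γ) {x y : L} (hx : x ≠ 0) (hy : y ≠ 0) (hle : v x ≤ v y) :
    ord v γ y ≤ ord v γ x :=
  csSup_le_csSup (bddAbove_cut h hx) (cut_nonempty h hy) fun _ ⟨k, l, hl, hm, hr⟩ =>
    ⟨k, l, hl, (pow_le_pow_left₀ zero_le hle l).trans hm, hr⟩

theorem absFun_mono (h : Bounded v γ) {x y : L} (hle : v x ≤ v y) :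
    absFun v γ x ≤ absFun v γ y := by
  unfold absFun
  split_ifs with hx hy hy
  · exact le_rfl
  · exact (Real.exp_pos _).le
  · rw [hy, map_zero] at hle
    exact absurd ((map_eq_zero v).1 (le_antisymm hle zero_le)) hx
  · exact Real.exp_le_exp.2 (neg_le_neg (ord_mono h hx hy hle))

theorem absFun_nonneg (x : L) : 0 ≤ absFun v γ x := by
  unfold absFun
  split_ifs
  · exact le_rfl
  · exact (Real.exp_pos _).le

theorem absFun_add_le_max (h : Bounded v γ) (x y : L) :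
    absFun v γ (x + y) ≤ max (absFun v γ x) (absFun v γ y) := by
  rcases le_max_iff.1 (v.map_add x y) with hx | hy
  · exact (absFun_mono h hx).trans (le_max_left _ _)
  · exact (absFun_mono h hy).trans (le_max_right _ _)

theorem absFun_mul (h : Bounded v γ) (x y : L) :
    absFun v γ (x * y) = absFun v γ x * absFun v γ y := by
  by_cases hx : x = 0
  · simp [absFun, hx]
  by_cases hy : y = 0
  · simp [absFun, hy]
  simp only [absFun, if_neg hx, if_neg hy, if_neg (mul_ne_zero hx hy), ord_mul h hx hy, neg_add,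
    Real.exp_add]

/-- The absolute value. -/
noncomputable def absVal (h : Bounded v γ) : AbsoluteValue L ℝ where
  toFun := absFun v γ
  map_mul' := absFun_mul h
  nonneg' := absFun_nonneg
  eq_zero' x := by
    by_cases hx : x = 0 <;> simp [absFun, hx, (Real.exp_pos _).ne']
  add_le' x y := (absFun_add_le_max h x y).trans
    (max_le (le_add_of_nonneg_right (absFun_nonneg y)) (le_add_of_nonneg_left (absFun_nonneg x)))

theorem absVal_le_one (h : Bounded v γ) {x : L} (hx : v x ≤ 1) : absVal h x ≤ 1 := by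
  show absFun v γ x ≤ 1
  unfold absFun
  split_ifs with h0
  · exact zero_le_one
  · rw [Real.exp_le_one_iff, neg_nonpos]
    simpa using le_ord h h0 (k := 0) (l := 1) one_pos (by simpa [Mem] using hx)

theorem absVal_eq_one (h : Bounded v γ) {x : L} (hx : v x = 1) : absVal h x = 1 := by
  refine le_antisymm (absVal_le_one h hx.le) ?_
  have h0 : x ≠ 0 := fun h0 => by simp [h0] at hx
  show 1 ≤ absFun v γ x
  rw [absFun, if_neg h0, Real.one_le_exp_iff, neg_nonneg]
  refine csSup_le (cut_nonempty h h0) fun r ⟨k, l, hl, hm, hr⟩ => hr.trans ?_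
  rw [Mem, hx, one_pow, ← zpow_zero γ, zpow_le_iff h] at hm
  exact div_nonpos_of_nonpos_of_nonneg (by exact_mod_cast hm) (Nat.cast_nonneg _)

theorem absVal_lt_one (h : Bounded v γ) {x : L} {l : ℕ} (hl : 0 < l) (hx : v x ^ l ≤ γ) :
    absVal h x < 1 := by
  show absFun v γ x < 1
  unfold absFun
  split_ifs with h0
  · exact zero_lt_one
  · rw [Real.exp_lt_one_iff, neg_lt_zero]
    refine lt_of_lt_of_le ?_ (le_ord h h0 (k := 1) hl (by simpa [Mem] using hx))
    exact div_pos (by norm_num) (by exact_mod_cast hl)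

end Vale.Agent.P217.RankOne
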